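import Vale.Agent.P329.H550.SccFour

namespace Vale.Agent.Results.P329.FewStates

open Vale.Agent.P329 Vale.Agent.P329.H647 Vale.Agent.P329.H112 Vale.Agent.P329.H96

/-- `HeightLe h L`: the language `L` has generalized star height at most `h`. `MapLe h φ`: all
languages recognised through the map `φ` of the letters to a monoid have generalized star height
at most `h`. `DividesProduct G`: `G` is a divisor of a finite product of finite groups, each
nilpotent, or (exponent two)-by-(subgroup of `S_3`), or abelian-by-(elementary abelian).
(1) If every strongly connected component of a deterministic automaton (finitely many states, any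
finite alphabet) has at most `n + 3` states, the accepted language has generalized star height at
most `n + 1`. In particular (`n = 0`) every language accepted by an automaton with at most three
states, or all of whose strongly connected components have at most three states, has generalized
star height at most one, and `n + 3` states give height at most `n + 1`.
(2) If every strongly connected component `C` of a deterministic automaton has at most three
states, or has four states and every letter `a` which maps `C` into `C` has fibres of equal size
on `C` (that is, acts as a permutation, a two-to-one map or a constant map; letters which leave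
`C` from at least one state of `C` are arbitrary), then the accepted language has generalized
star height at most one.
(3) Let `δ i` be finitely many automata with three states, and `ε i` finitely many automata with
four states all of whose letters have fibres of equal size, over the alphabet `α`, and let `F` be
a map of the letters to a finite direct product of finite groups in the class `DividesProduct`.
Let `φ` be a map of the letters to a finite monoid `M`. If the value `φ v` is aperiodic for every
nonempty word `v` with trivial value `F v` which acts as an idempotent transformation on the
states of each `δ i` and each `ε i`, then all languages recognised through `φ` have generalized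
star height at most one. -/
theorem result :
    (∀ (n : ℕ) (α σ : Type) [Finite α] [Finite σ] (A : DFA α σ),
      (∀ q : σ, {r : σ | (∃ u, A.evalFrom q u = r) ∧ ∃ v, A.evalFrom r v = q}.ncard ≤ n + 3) →
        HeightLe (n + 1) {w : List α | w ∈ A.accepts}) ∧
    (∀ (α σ : Type) [Finite α] [Finite σ] (A : DFA α σ),
      (∀ (q : σ) (C : Set σ), C = {r | (∃ u, A.evalFrom q u = r) ∧ ∃ v, A.evalFrom r v = q} →
        C.ncard ≤ 3 ∨ (C.ncard = 4 ∧ ∀ a, (∀ x ∈ C, A.step x a ∈ C) → ∀ x ∈ C, ∀ y ∈ C,
          {s | s ∈ C ∧ A.step s a = A.step x a}.ncard =
            {s | s ∈ C ∧ A.step s a = A.step y a}.ncard)) →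
        HeightLe 1 {w : List α | w ∈ A.accepts}) ∧
    (∀ (α ι ι' κ : Type) [Finite α] [Finite ι] [Finite ι'] [Finite κ]
      (δ : ι → Fin 3 → α → Fin 3) (ε : ι' → Fin 4 → α → Fin 4),
      (∀ i a x y, {s | ε i s a = ε i x a}.ncard = {s | ε i s a = ε i y a}.ncard) →
      ∀ (H : κ → Type) [∀ k, Group (H k)] [∀ k, Finite (H k)] (F : α → ∀ k, H k),
      (∀ k, DividesProduct (H k)) → ∀ (M : Type) [Monoid M] [Finite M] (φ : α → M),
        (∀ v : List α, v ≠ [] → (v.map F).prod = 1 →
          (∀ i x, v.foldl (δ i) (v.foldl (δ i) x) = v.foldl (δ i) x) →
          (∀ i x, v.foldl (ε i) (v.foldl (ε i) x) = v.foldl (ε i) x) →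
            ∃ k, (v.map φ).prod ^ (k + 1) = (v.map φ).prod ^ k) → MapLe 1 φ) :=
  ⟨fun n _ _ _ _ A hX => H550.dfa_scc n A hX,
    fun _ _ _ _ A hX => H550.dfa_scc_four A fun q => hX q _ rfl,
    fun _ _ _ _ _ _ _ _ δ ε hε H _ _ F hH M _ _ φ hφ => H550.over_four δ ε hε H F hH M φ hφ⟩

end Vale.Agent.Results.P329.FewStates
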